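import Mathlib

/-!
Basic real bilinear form attached to a complex inner product, and the pair inequalities
coming from a rectangle containing the numerical range.
-/

namespace Vale.Agent.Lib.P123

open ComplexConjugate

variable {H : Type*} [NormedAddCommGroup H] [InnerProductSpace ℂ H]

/-- The real part of the inner product. -/
noncomputable def F (a b : H) : ℝ := (inner ℂ a b).re

theorem F_add_left (a b c : H) : F (a + b) c = F a c + F b c := by
  simp [F]

theorem F_add_right (a b c : H) : F a (b + c) = F a b + F a c := by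
  simp [F]

theorem F_sub_left (a b c : H) : F (a - b) c = F a c - F b c := by
  simp [F]

theorem F_sub_right (a b c : H) : F a (b - c) = F a b - F a c := by
  simp [F]

theorem F_smul_left (r : ℝ) (a b : H) : F ((r : ℂ) • a) b = r * F a b := by
  simp [F]

theorem F_smul_right (r : ℝ) (a b : H) : F a ((r : ℂ) • b) = r * F a b := by
  simp [F]

theorem F_comm (a b : H) : F a b = F b a := by
  simp only [F]
  exact inner_re_symm (𝕜 := ℂ) a b

theorem F_self (a : H) : F a a = ‖a‖ ^ 2 := by
  simp only [F]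
  have := inner_self_eq_norm_sq (𝕜 := ℂ) a
  simpa using this

theorem F_self_nonneg (a : H) : 0 ≤ F a a := by
  rw [F_self]; positivity

/-- `2 F a b ≤ F a a + F b b` and its mirror image. -/
theorem two_F_abs_le (a b : H) : |2 * F a b| ≤ F a a + F b b := by
  have h1 := F_self_nonneg (a + b)
  have h2 := F_self_nonneg (a - b)
  simp only [F_add_left, F_add_right, F_sub_left, F_sub_right] at h1 h2
  rw [F_comm b a] at h1 h2
  rw [abs_le]
  constructor <;> linarith

/-- Pair inequality for the real part. -/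
theorem pairX (A : H →L[ℂ] H) {X : ℝ} (hre : ∀ v : H, |(inner ℂ v (A v)).re| ≤ X * ‖v‖ ^ 2)
    (w t : H) : F w (A t) + F t (A w) ≤ X * (F w w + F t t) := by
  have h1 := abs_le.mp (hre (w + t))
  have h2 := abs_le.mp (hre (w - t))
  have e1 : (inner ℂ (w + t) (A (w + t))).re = F w (A w) + F w (A t) + F t (A w) + F t (A t) := by
    change F (w + t) (A (w + t)) = _
    simp only [map_add, F_add_left, F_add_right]; ring
  have e2 : (inner ℂ (w - t) (A (w - t))).re = F w (A w) - F w (A t) - F t (A w) + F t (A t) := by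
    change F (w - t) (A (w - t)) = _
    simp only [map_sub, F_sub_left, F_sub_right]; ring
  have n1 : ‖w + t‖ ^ 2 = F w w + F w t + F t w + F t t := by
    rw [← F_self]; simp only [F_add_left, F_add_right]; ring
  have n2 : ‖w - t‖ ^ 2 = F w w - F w t - F t w + F t t := by
    rw [← F_self]; simp only [F_sub_left, F_sub_right]; ring
  rw [e1, n1] at h1
  rw [e2, n2] at h2
  nlinarith [h1.2, h2.1]

/-- Pair inequality for the imaginary part. -/
theorem pairY (A : H →L[ℂ] H) {Y : ℝ} (him : ∀ v : H, |(inner ℂ v (A v)).im| ≤ Y * ‖v‖ ^ 2)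
    (w t : H) : F w (A t) - F t (A w) ≤ Y * (F w w + F t t) := by
  have h1 := abs_le.mp (him (w + Complex.I • t))
  have h2 := abs_le.mp (him (w - Complex.I • t))
  have e1 : (inner ℂ (w + Complex.I • t) (A (w + Complex.I • t))).im
      = (inner ℂ w (A w)).im + F w (A t) - F t (A w) + (inner ℂ t (A t)).im := by
    simp only [map_add, map_smul, inner_add_left, inner_add_right, inner_smul_left,
      inner_smul_right, Complex.conj_I, F]
    simp [Complex.add_im, Complex.mul_im]
    ring
  have e2 : (inner ℂ (w - Complex.I • t) (A (w - Complex.I • t))).im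
      = (inner ℂ w (A w)).im - F w (A t) + F t (A w) + (inner ℂ t (A t)).im := by
    simp only [map_sub, map_smul, inner_sub_left, inner_sub_right, inner_smul_left,
      inner_smul_right, Complex.conj_I, F]
    simp [Complex.add_im, Complex.sub_im, Complex.mul_im]
    ring
  have n1 : ‖w + Complex.I • t‖ ^ 2 + ‖w - Complex.I • t‖ ^ 2 = 2 * (F w w + F t t) := by
    have := parallelogram_law_with_norm ℂ w (Complex.I • t)
    rw [norm_smul, Complex.norm_I, one_mul] at this
    rw [F_self, F_self]
    nlinarith [this]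
  have n2 : Y * ‖w + Complex.I • t‖ ^ 2 + Y * ‖w - Complex.I • t‖ ^ 2
      = 2 * (Y * (F w w + F t t)) := by
    rw [← mul_add, n1]; ring
  rw [e1] at h1
  rw [e2] at h2
  linarith [h1.2, h2.1]

/-- Norm bound from squares. -/
theorem norm_le_of_sq_le {a b : ℝ} (hb : 0 ≤ b) (h : a ^ 2 ≤ b ^ 2) (ha : 0 ≤ a) : a ≤ b :=
  (sq_le_sq₀ ha hb).mp h

/-- The degree one bound: a rectangle with half sides `X, Y` gives `‖A x‖ ≤ (X + Y) ‖x‖`. -/
theorem norm_apply_le_of_rect (A : H →L[ℂ] H) {X Y : ℝ} (hS : 0 < X + Y)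
    (hre : ∀ v : H, |(inner ℂ v (A v)).re| ≤ X * ‖v‖ ^ 2)
    (him : ∀ v : H, |(inner ℂ v (A v)).im| ≤ Y * ‖v‖ ^ 2) (x : H) :
    ‖A x‖ ≤ (X + Y) * ‖x‖ := by
  have h1 := pairX A hre (A x) (((X + Y : ℝ) : ℂ) • x)
  have h2 := pairY A him (A x) (((X + Y : ℝ) : ℂ) • x)
  simp only [map_smul, F_smul_left, F_smul_right] at h1 h2
  have h3 : (X + Y) * F (A x) (A x) ≤ (X + Y) * ((X + Y) ^ 2 * F x x) := by
    nlinarith [h1, h2]
  have h4 : F (A x) (A x) ≤ (X + Y) ^ 2 * F x x := le_of_mul_le_mul_left h3 hS
  rw [F_self, F_self] at h4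
  apply norm_le_of_sq_le (by positivity) _ (norm_nonneg _)
  rw [mul_pow]; exact h4

end Vale.Agent.Lib.P123
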