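import Vale.Agent.Lib.P123.Lobe

/-!
The bound `‖A² - 1‖ ≤ 2 M` when `|τ² - 1| ≤ M` on the numerical range.
-/

namespace Vale.Agent.Lib.P123

variable {H : Type*} [NormedAddCommGroup H] [InnerProductSpace ℂ H]

theorem inner_scale (A : H →L[ℂ] H) (r : ℝ) (u : H) :
    inner ℂ ((r : ℂ) • u) (A ((r : ℂ) • u)) = ((r ^ 2 : ℝ) : ℂ) * inner ℂ u (A u) := by
  simp
  ring

/-- Each nonzero vector is a positive multiple of a unit vector. -/
theorem exists_unit {v : H} (hv : v ≠ 0) : ∃ u : H, ‖u‖ = 1 ∧ v = ((‖v‖ : ℝ) : ℂ) • u := by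
  have hn : (‖v‖ : ℝ) ≠ 0 := norm_ne_zero_iff.mpr hv
  refine ⟨(((‖v‖⁻¹ : ℝ)) : ℂ) • v, ?_, ?_⟩
  · rw [norm_smul, Complex.norm_real, norm_inv, norm_norm, inv_mul_cancel₀ hn]
  · rw [smul_smul, ← Complex.ofReal_mul, mul_inv_cancel₀ hn]; simp

/-- Passing from unit vectors to all vectors, real part. -/
theorem re_bound_of_unit (A : H →L[ℂ] H) {X : ℝ}
    (h : ∀ x : H, ‖x‖ = 1 → |(inner ℂ x (A x)).re| ≤ X) (v : H) :
    |(inner ℂ v (A v)).re| ≤ X * ‖v‖ ^ 2 := by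
  by_cases hv : v = 0
  · subst hv; simp
  · obtain ⟨u, hu, hvu⟩ := exists_unit hv
    have key : inner ℂ v (A v) = ((‖v‖ ^ 2 : ℝ) : ℂ) * inner ℂ u (A u) := by
      conv_lhs => rw [hvu]
      exact inner_scale A _ u
    rw [key, Complex.re_ofReal_mul, abs_mul, abs_of_nonneg (by positivity), mul_comm]
    exact mul_le_mul_of_nonneg_right (h u hu) (by positivity)

/-- Passing from unit vectors to all vectors, imaginary part. -/
theorem im_bound_of_unit (A : H →L[ℂ] H) {Y : ℝ}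
    (h : ∀ x : H, ‖x‖ = 1 → |(inner ℂ x (A x)).im| ≤ Y) (v : H) :
    |(inner ℂ v (A v)).im| ≤ Y * ‖v‖ ^ 2 := by
  by_cases hv : v = 0
  · subst hv; simp
  · obtain ⟨u, hu, hvu⟩ := exists_unit hv
    have key : inner ℂ v (A v) = ((‖v‖ ^ 2 : ℝ) : ℂ) * inner ℂ u (A u) := by
      conv_lhs => rw [hvu]
      exact inner_scale A _ u
    rw [key, Complex.im_ofReal_mul, abs_mul, abs_of_nonneg (by positivity), mul_comm]
    exact mul_le_mul_of_nonneg_right (h u hu) (by positivity)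

/-- Scalar facts on the lemniscate `|z² - 1| ≤ M`. -/
theorem scalar_facts {z : ℂ} {M : ℝ} (h : ‖z ^ 2 - 1‖ ≤ M) :
    z.re ^ 2 + z.im ^ 2 ≤ 1 + M ∧ 2 * |z.im| ≤ M ∧ 1 - M + z.im ^ 2 ≤ z.re ^ 2 ∧
      (2 ≤ M → z.im ^ 2 ≤ M - 1) := by
  have hM : 0 ≤ M := (norm_nonneg _).trans h
  have hn : ‖z ^ 2 - 1‖ ^ 2 ≤ M ^ 2 := by
    exact pow_le_pow_left₀ (norm_nonneg _) h 2
  have hs : ‖z ^ 2 - 1‖ ^ 2 = (z.re ^ 2 - z.im ^ 2 - 1) ^ 2 + (2 * z.re * z.im) ^ 2 := by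
    rw [Complex.sq_norm, Complex.normSq_apply]
    simp [pow_two, Complex.mul_re, Complex.mul_im]
    ring
  rw [hs] at hn
  have hid : (z.re ^ 2 - z.im ^ 2 - 1) ^ 2 + (2 * z.re * z.im) ^ 2
      = (z.re ^ 2 + z.im ^ 2 - 1) ^ 2 + 4 * z.im ^ 2 := by ring
  have h1 : z.re ^ 2 + z.im ^ 2 ≤ 1 + M := by
    have : (z.re ^ 2 + z.im ^ 2 - 1) ^ 2 ≤ M ^ 2 := by
      nlinarith [sq_nonneg z.im]
    have := abs_le_of_sq_le_sq' this hM
    linarith [this.2]
  have h2 : 2 * |z.im| ≤ M := by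
    have : (2 * |z.im|) ^ 2 ≤ M ^ 2 := by
      rw [mul_pow, sq_abs]
      nlinarith [sq_nonneg (z.re ^ 2 + z.im ^ 2 - 1)]
    exact norm_le_of_sq_le hM this (by positivity)
  have h3 : 1 - M + z.im ^ 2 ≤ z.re ^ 2 := by
    have : (z.re ^ 2 - z.im ^ 2 - 1) ^ 2 ≤ M ^ 2 := by
      nlinarith [sq_nonneg (2 * z.re * z.im)]
    have := abs_le_of_sq_le_sq' this hM
    linarith [this.1]
  refine ⟨h1, h2, h3, ?_⟩
  intro hM2
  by_cases hy : z.im ^ 2 ≤ 1
  · linarith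
  · push Not at hy
    have hpos : 0 ≤ z.im ^ 2 - 1 := by linarith
    have hge : z.im ^ 2 - 1 ≤ z.re ^ 2 + z.im ^ 2 - 1 := by nlinarith [sq_nonneg z.re]
    have h4 : (z.im ^ 2 - 1) ^ 2 ≤ (z.re ^ 2 + z.im ^ 2 - 1) ^ 2 :=
      pow_le_pow_left₀ hpos hge 2
    have h5 : (z.im ^ 2 + 1) ^ 2 ≤ M ^ 2 := by nlinarith
    have := norm_le_of_sq_le hM h5 (by positivity)
    linarith

/-- Real part cannot vanish on the numerical range if `M < 1`. -/
theorem re_ne_zero_of_lt_one {z : ℂ} {M : ℝ} (hM1 : M < 1) (h : ‖z ^ 2 - 1‖ ≤ M) : z.re ≠ 0 := by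
  intro h0
  have := (scalar_facts h).2.2.1
  rw [h0] at this
  nlinarith [sq_nonneg z.im]

/-- Constancy of the sign of the real part. -/
theorem sign_const (A : H →L[ℂ] H) {M : ℝ} (hM1 : M < 1)
    (h : ∀ x : H, ‖x‖ = 1 → ‖(inner ℂ x (A x)) ^ 2 - 1‖ ≤ M) :
    (∀ v : H, v ≠ 0 → 0 < (inner ℂ v (A v)).re) ∨ (∀ v : H, v ≠ 0 → (inner ℂ v (A v)).re < 0) := by
  have hne : ∀ v : H, v ≠ 0 → (inner ℂ v (A v)).re ≠ 0 := by
    intro v hv
    obtain ⟨u, hu, hvu⟩ := exists_unit hv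
    have key : inner ℂ v (A v) = ((‖v‖ ^ 2 : ℝ) : ℂ) * inner ℂ u (A u) := by
      conv_lhs => rw [hvu]
      exact inner_scale A _ u
    rw [key, Complex.re_ofReal_mul]
    have hn : ‖v‖ ≠ 0 := norm_ne_zero_iff.mpr hv
    exact mul_ne_zero (pow_ne_zero 2 hn) (re_ne_zero_of_lt_one hM1 (h u hu))
  by_contra hcon
  push Not at hcon
  obtain ⟨⟨a, ha, hare⟩, ⟨b, hb, hbre⟩⟩ := hcon
  have hare' : (inner ℂ a (A a)).re < 0 := lt_of_le_of_ne hare (hne a ha)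
  have hbre' : 0 < (inner ℂ b (A b)).re := lt_of_le_of_ne hbre (Ne.symm (hne b hb))
  -- the segment from a to b
  let g : ℝ → ℝ := fun t =>
    (1 - t) ^ 2 * F a (A a) + (1 - t) * t * (F a (A b) + F b (A a)) + t ^ 2 * F b (A b)
  have hgcont : ContinuousOn g (Set.Icc 0 1) := by
    apply Continuous.continuousOn
    simp only [g]
    fun_prop
  have hg0 : g 0 = (inner ℂ a (A a)).re := by simp [g, F]
  have hg1 : g 1 = (inner ℂ b (A b)).re := by simp [g, F]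
  have hmem : (0 : ℝ) ∈ Set.Icc (g 0) (g 1) := by
    rw [hg0, hg1]; exact ⟨hare'.le, hbre'.le⟩
  obtain ⟨t, ⟨ht0, ht1⟩, hgt⟩ := intermediate_value_Icc (by norm_num : (0 : ℝ) ≤ 1) hgcont hmem
  have hval : (inner ℂ (((1 - t : ℝ) : ℂ) • a + ((t : ℝ) : ℂ) • b)
      (A (((1 - t : ℝ) : ℂ) • a + ((t : ℝ) : ℂ) • b))).re = g t := by
    change F _ _ = _
    simp only [map_add, map_smul, F_add_left, F_add_right, F_smul_left, F_smul_right, g]
    ring
  by_cases hz : ((1 - t : ℝ) : ℂ) • a + ((t : ℝ) : ℂ) • b = 0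
  · -- the segment passes through zero
    have ht : t ≠ 0 := by
      intro h0
      subst h0
      simp at hz
      exact ha hz
    have hb' : b = ((-((1 - t) / t) : ℝ) : ℂ) • a := by
      have hz' : ((t : ℝ) : ℂ) • b = -(((1 - t : ℝ) : ℂ) • a) := eq_neg_of_add_eq_zero_right hz
      have htc : (t : ℂ) ≠ 0 := by exact_mod_cast ht
      calc b = (t : ℂ)⁻¹ • ((t : ℂ) • b) := by rw [smul_smul, inv_mul_cancel₀ htc, one_smul]
        _ = ((-((1 - t) / t) : ℝ) : ℂ) • a := by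
          rw [hz', ← neg_smul, smul_smul]
          congr 1
          push_cast
          field_simp
    have e : (inner ℂ b (A b)).re = (-((1 - t) / t)) ^ 2 * (inner ℂ a (A a)).re := by
      conv_lhs => rw [hb']
      rw [inner_scale, Complex.re_ofReal_mul]
    rw [e] at hbre'
    have : (-((1 - t) / t)) ^ 2 * (inner ℂ a (A a)).re ≤ 0 :=
      mul_nonpos_of_nonneg_of_nonpos (by positivity) hare'.le
    linarith
  · exact hne _ hz (hval.trans hgt)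

/-- The bound in the case of a lobe with positive real part. -/
theorem core_pos (A : H →L[ℂ] H) {M : ℝ} (hM : 0 < M) (hM1 : M ≤ 24 / 25)
    (h : ∀ x : H, ‖x‖ = 1 → ‖(inner ℂ x (A x)) ^ 2 - 1‖ ≤ M)
    (hpos : ∀ v : H, v ≠ 0 → 0 < (inner ℂ v (A v)).re) (x : H) :
    ‖A (A x) - x‖ ≤ 2 * M * ‖x‖ := by
  -- parameters
  obtain ⟨a, ha⟩ : ∃ a, a = Real.sqrt (1 + M) := ⟨_, rfl⟩
  obtain ⟨b, hb⟩ : ∃ b, b = Real.sqrt (1 - M) := ⟨_, rfl⟩
  have ha2 : a ^ 2 = 1 + M := by rw [ha]; exact Real.sq_sqrt (by linarith)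
  have hb2 : b ^ 2 = 1 - M := by rw [hb]; exact Real.sq_sqrt (by linarith)
  have ha0 : 0 ≤ a := by rw [ha]; exact Real.sqrt_nonneg _
  have hb0 : 0 ≤ b := by rw [hb]; exact Real.sqrt_nonneg _
  have hab : b < a := by
    apply lt_of_pow_lt_pow_left₀ 2 ha0
    rw [ha2, hb2]; linarith
  obtain ⟨c, hc⟩ : ∃ c, c = (a + b) / 2 := ⟨_, rfl⟩
  obtain ⟨s, hs⟩ : ∃ s, s = (a - b) / 2 := ⟨_, rfl⟩
  have hs0 : 0 < s := by rw [hs]; linarith
  have hc0 : 0 < c := by rw [hc]; linarith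
  have hsc : s ^ 2 + c ^ 2 = 1 := by rw [hs, hc]; nlinarith
  have h2sc : 2 * s * c = M := by rw [hs, hc]; nlinarith
  have hab7 : 7 / 25 ≤ a * b := by
    have h1 : (7 / 25 : ℝ) ^ 2 ≤ (a * b) ^ 2 := by
      rw [mul_pow, ha2, hb2]; nlinarith
    exact norm_le_of_sq_le (mul_nonneg ha0 hb0) h1 (by norm_num)
  have hc45 : 4 / 5 ≤ c := by
    have h1 : (4 / 5 : ℝ) ^ 2 ≤ c ^ 2 := by rw [hc]; nlinarith
    exact norm_le_of_sq_le hc0.le h1 (by norm_num)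
  have hc1 : c ≤ 1 := by nlinarith [sq_nonneg s]
  have hs35 : s ≤ 3 / 5 := by nlinarith
  -- the rectangle on unit vectors
  have hrect : ∀ v : H, ‖v‖ = 1 →
      |(inner ℂ v (A v)).re - c| ≤ s ∧ |(inner ℂ v (A v)).im| ≤ s * c := by
    intro v hv
    have hv0 : v ≠ 0 := by
      intro h0; rw [h0] at hv; simp at hv
    obtain ⟨f1, f2, f3, -⟩ := scalar_facts (h v hv)
    have hp := hpos v hv0
    generalize inner ℂ v (A v) = z at *
    constructor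
    · have u1 : z.re ≤ a := by
        apply norm_le_of_sq_le ha0 _ hp.le
        rw [ha2]; nlinarith [sq_nonneg z.im]
      have u2 : b ≤ z.re := by
        apply norm_le_of_sq_le hp.le _ hb0
        rw [hb2]; nlinarith [sq_nonneg z.im]
      rw [abs_le, hc, hs]
      constructor <;> linarith
    · have : 2 * |z.im| ≤ 2 * s * c := by rw [h2sc]; exact f2
      linarith
  -- the rescaled operator
  let B : H →L[ℂ] H := ((s : ℂ)⁻¹) • (A - (c : ℂ) • ContinuousLinearMap.id ℂ H)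
  have hsC : (s : ℂ) ≠ 0 := by exact_mod_cast hs0.ne'
  have hBapp : ∀ v, B v = ((s : ℂ)⁻¹) • (A v - (c : ℂ) • v) := fun v => by
    simp [B]
  have hAB : ∀ v, A v = (s : ℂ) • B v + (c : ℂ) • v := fun v => by
    rw [hBapp, smul_smul, mul_inv_cancel₀ hsC, one_smul, sub_add_cancel]
  have hBin : ∀ v : H, ‖v‖ = 1 → inner ℂ v (B v) = ((s⁻¹ : ℝ) : ℂ) * (inner ℂ v (A v) - (c : ℂ)) := by
    intro v hv
    rw [hBapp, inner_smul_right, inner_sub_right, inner_smul_right]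
    have : inner ℂ v v = (1 : ℂ) := by
      rw [inner_self_eq_norm_sq_to_K, hv]; simp
    rw [this]
    push_cast
    ring
  have hBre : ∀ v : H, |(inner ℂ v (B v)).re| ≤ 1 * ‖v‖ ^ 2 := by
    apply re_bound_of_unit
    intro v hv
    rw [hBin v hv, Complex.re_ofReal_mul, abs_mul, abs_of_pos (inv_pos.mpr hs0)]
    have h1 := (hrect v hv).1
    have : (inner ℂ v (A v) - (c : ℂ)).re = (inner ℂ v (A v)).re - c := by simp
    rw [this]
    calc s⁻¹ * |(inner ℂ v (A v)).re - c| ≤ s⁻¹ * s :=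
          mul_le_mul_of_nonneg_left h1 (inv_pos.mpr hs0).le
      _ = 1 := inv_mul_cancel₀ hs0.ne'
  have hBim : ∀ v : H, |(inner ℂ v (B v)).im| ≤ (1 - (1 - c)) * ‖v‖ ^ 2 := by
    apply im_bound_of_unit
    intro v hv
    rw [hBin v hv, Complex.im_ofReal_mul, abs_mul, abs_of_pos (inv_pos.mpr hs0)]
    have h1 := (hrect v hv).2
    have : (inner ℂ v (A v) - (c : ℂ)).im = (inner ℂ v (A v)).im := by simp
    rw [this]
    calc s⁻¹ * |(inner ℂ v (A v)).im| ≤ s⁻¹ * (s * c) :=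
          mul_le_mul_of_nonneg_left h1 (inv_pos.mpr hs0).le
      _ = 1 - (1 - c) := by field_simp; ring
  have hl := lobe B (s := s) (u := 1 - c) (by linarith) (by linarith) hs0.le hs35
    (by nlinarith) hBre hBim x
  have hid : A (A x) - x = (s : ℂ) • ((s : ℂ) • B (B x) + ((2 * (1 - (1 - c)) : ℝ) : ℂ) • B x
      - (s : ℂ) • x) := by
    have hsc' : (s : ℂ) ^ 2 + (c : ℂ) ^ 2 = 1 := by exact_mod_cast hsc
    have e1 : A (A x) = (s : ℂ) • ((s : ℂ) • B (B x) + (c : ℂ) • B x) + (c : ℂ) • ((s : ℂ) • B x + (c : ℂ) • x) := by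
      conv_lhs => rw [hAB x, map_add, map_smul, map_smul, hAB (B x), hAB x]
    rw [e1]
    generalize B (B x) = y2
    generalize B x = y1
    calc (s : ℂ) • ((s : ℂ) • y2 + (c : ℂ) • y1) + (c : ℂ) • ((s : ℂ) • y1 + (c : ℂ) • x) - x
        = (s : ℂ) • ((s : ℂ) • y2 + (c : ℂ) • y1) + (c : ℂ) • ((s : ℂ) • y1 + (c : ℂ) • x)
            - ((s : ℂ) ^ 2 + (c : ℂ) ^ 2) • x := by rw [hsc', one_smul]
      _ = _ := by
        push_cast
        module
  rw [hid, norm_smul, Complex.norm_real, Real.norm_of_nonneg hs0.le]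
  calc s * ‖(s : ℂ) • B (B x) + ((2 * (1 - (1 - c)) : ℝ) : ℂ) • B x - (s : ℂ) • x‖
      ≤ s * (4 * (1 - (1 - c)) * ‖x‖) := mul_le_mul_of_nonneg_left hl hs0.le
    _ = 2 * M * ‖x‖ := by rw [← h2sc]; ring

/-- The core bound. -/
theorem core (A : H →L[ℂ] H) {M : ℝ} (hM : 0 < M)
    (h : ∀ x : H, ‖x‖ = 1 → ‖(inner ℂ x (A x)) ^ 2 - 1‖ ≤ M) (x : H) :
    ‖A (A x) - x‖ ≤ 2 * M * ‖x‖ := by
  have hx0 := norm_nonneg x
  by_cases hM1 : M ≤ 24 / 25
  · -- small `M`: the numerical range lies in one lobe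
    rcases sign_const A (by linarith) h with hp | hn
    · exact core_pos A hM hM1 h hp x
    · have := core_pos (-A) hM hM1 (fun v hv => by
        have := h v hv
        simpa [inner_neg_right, neg_sq] using this) (fun v hv => by
        have := hn v hv
        simp only [neg_apply, inner_neg_right, Complex.neg_re]
        linarith) x
      simpa using this
  push Not at hM1
  -- large `M`: the rectangle
  obtain ⟨X, hX⟩ : ∃ X, X = Real.sqrt (1 + M) := ⟨_, rfl⟩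
  have hX2 : X ^ 2 = 1 + M := by rw [hX]; exact Real.sq_sqrt (by linarith)
  have hX0 : 0 ≤ X := by rw [hX]; exact Real.sqrt_nonneg _
  have hXre : ∀ v : H, |(inner ℂ v (A v)).re| ≤ X * ‖v‖ ^ 2 := by
    apply re_bound_of_unit
    intro v hv
    obtain ⟨f1, -, -, -⟩ := scalar_facts (h v hv)
    apply norm_le_of_sq_le hX0 _ (abs_nonneg _) 
    rw [sq_abs, hX2]; nlinarith [sq_nonneg (inner ℂ v (A v)).im]
  by_cases hM2 : 2 ≤ M
  · obtain ⟨Y, hY⟩ : ∃ Y, Y = Real.sqrt (M - 1) := ⟨_, rfl⟩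
    have hY2 : Y ^ 2 = M - 1 := by rw [hY]; exact Real.sq_sqrt (by linarith)
    have hY0 : 0 ≤ Y := by rw [hY]; exact Real.sqrt_nonneg _
    have hYim : ∀ v : H, |(inner ℂ v (A v)).im| ≤ Y * ‖v‖ ^ 2 := by
      apply im_bound_of_unit
      intro v hv
      obtain ⟨-, -, -, f4⟩ := scalar_facts (h v hv)
      apply norm_le_of_sq_le hY0 _ (abs_nonneg _)
      rw [sq_abs, hY2]; exact f4 hM2
    have hXpos : 0 < X := by
      rcases hX0.lt_or_eq with h1 | h1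
      · exact h1
      · rw [← h1] at hX2; nlinarith
    have hm := main_lemma A (X := X) (Y := Y) (by linarith) hXre hYim x
    have hc0 : (((X ^ 2 - Y ^ 2) / 2 : ℝ) : ℂ) = 1 := by
      have : (X ^ 2 - Y ^ 2) / 2 = 1 := by rw [hX2, hY2]; ring
      rw [this]; simp
    rw [hc0, one_smul] at hm
    have hXY : X * Y ≤ M := by
      apply norm_le_of_sq_le hM.le _ (mul_nonneg hX0 hY0)
      rw [mul_pow, hX2, hY2]; nlinarith
    have hsq : (X + Y) ^ 2 / 2 ≤ 2 * M := by nlinarith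
    exact hm.trans (mul_le_mul_of_nonneg_right hsq hx0)
  · push Not at hM2
    have hYim : ∀ v : H, |(inner ℂ v (A v)).im| ≤ (M / 2) * ‖v‖ ^ 2 := by
      apply im_bound_of_unit
      intro v hv
      obtain ⟨-, f2, -, -⟩ := scalar_facts (h v hv)
      linarith
    have hXpos : 0 < X := by
      rcases hX0.lt_or_eq with h1 | h1
      · exact h1
      · rw [← h1] at hX2; nlinarith
    have hm := main_lemma A (X := X) (Y := M / 2) (by linarith) hXre hYim x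
    have hsplit : A (A x) - x = (A (A x) - (((X ^ 2 - (M / 2) ^ 2) / 2 : ℝ) : ℂ) • x)
        + (((X ^ 2 - (M / 2) ^ 2) / 2 - 1 : ℝ) : ℂ) • x := by
      push_cast
      module
    have hc1 : ‖(((X ^ 2 - (M / 2) ^ 2) / 2 - 1 : ℝ) : ℂ) • x‖
        = (1 - (X ^ 2 - (M / 2) ^ 2) / 2) * ‖x‖ := by
      rw [norm_smul, Complex.norm_real, Real.norm_eq_abs, abs_of_nonpos]
      · ring
      · rw [hX2]; nlinarith [sq_nonneg (M - 2)]
    have hfin : (X + M / 2) ^ 2 / 2 + (1 - (X ^ 2 - (M / 2) ^ 2) / 2) ≤ 2 * M := by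
      have h3 : 3 * X ≤ X ^ 2 + 9 / 4 := by nlinarith [sq_nonneg (X - 3 / 2)]
      rw [hX2] at h3
      nlinarith
    calc ‖A (A x) - x‖ ≤ ‖A (A x) - (((X ^ 2 - (M / 2) ^ 2) / 2 : ℝ) : ℂ) • x‖
          + ‖(((X ^ 2 - (M / 2) ^ 2) / 2 - 1 : ℝ) : ℂ) • x‖ := by
          rw [hsplit]; exact norm_add_le _ _
      _ ≤ ((X + M / 2) ^ 2 / 2) * ‖x‖ + (1 - (X ^ 2 - (M / 2) ^ 2) / 2) * ‖x‖ := by
          rw [hc1]; linarith [hm]
      _ = ((X + M / 2) ^ 2 / 2 + (1 - (X ^ 2 - (M / 2) ^ 2) / 2)) * ‖x‖ := by ring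
      _ ≤ 2 * M * ‖x‖ := mul_le_mul_of_nonneg_right hfin hx0

end Vale.Agent.Lib.P123
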