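import Vale.Agent.Lib.P123.Basic

/-!
Two quadratic operator bounds from a rectangle containing the numerical range.
-/

namespace Vale.Agent.Lib.P123

variable {H : Type*} [NormedAddCommGroup H] [InnerProductSpace ℂ H]

/-- Main lemma: if the numerical range of `A` lies in the rectangle `[-X, X] × [-Y, Y]`, then
`‖A (A x) - ((X^2 - Y^2)/2) x‖ ≤ ((X + Y)^2 / 2) ‖x‖`. -/
theorem main_lemma (A : H →L[ℂ] H) {X Y : ℝ} (hS : 0 < X + Y)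
    (hre : ∀ v : H, |(inner ℂ v (A v)).re| ≤ X * ‖v‖ ^ 2)
    (him : ∀ v : H, |(inner ℂ v (A v)).im| ≤ Y * ‖v‖ ^ 2) (x : H) :
    ‖A (A x) - (((X ^ 2 - Y ^ 2) / 2 : ℝ) : ℂ) • x‖ ≤ ((X + Y) ^ 2 / 2) * ‖x‖ := by
  obtain ⟨v1, hv1⟩ : ∃ v1, A x = v1 := ⟨_, rfl⟩
  obtain ⟨v2, hv2⟩ : ∃ v2, A v1 = v2 := ⟨_, rfl⟩
  obtain ⟨v3, hv3⟩ : ∃ v3, A v2 = v3 := ⟨_, rfl⟩
  rw [hv1, hv2]
  have h1 := pairX A hre (v2 + (((X + Y) * Y : ℝ) : ℂ) • x) (((X + Y : ℝ) : ℂ) • v1)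
  have h2 := pairY A him (v2 - (((X + Y) * X : ℝ) : ℂ) • x) (((X + Y : ℝ) : ℂ) • v1)
  simp only [map_add, map_sub, map_smul, hv1, hv2, hv3, F_add_left, F_add_right, F_sub_left,
    F_sub_right, F_smul_left, F_smul_right, F_comm v2 x, F_comm v1 x] at h1 h2
  have goal2 : F (v2 - (((X ^ 2 - Y ^ 2) / 2 : ℝ) : ℂ) • x) (v2 - (((X ^ 2 - Y ^ 2) / 2 : ℝ) : ℂ) • x)
      ≤ ((X + Y) ^ 2 / 2) ^ 2 * F x x := by
    simp only [F_sub_left, F_sub_right, F_smul_left, F_smul_right, F_comm v2 x]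
    have h3 : (X + Y) * (F v2 v2 - (X + Y) * (X - Y) * F x v2 - (X + Y) ^ 2 * (X * Y) * F x x) ≤ 0 := by
      nlinarith [h1, h2]
    have h4 : F v2 v2 - (X + Y) * (X - Y) * F x v2 - (X + Y) ^ 2 * (X * Y) * F x x ≤ 0 := by
      by_contra hc
      push Not at hc
      have := mul_pos hS hc
      linarith
    nlinarith [h4]
  rw [F_self, F_self] at goal2
  apply norm_le_of_sq_le (by positivity) _ (norm_nonneg _)
  rw [mul_pow]; exact goal2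

/-- `|2 D p| ≤ E (a + b)` type estimate. -/
theorem term_bound {D E p a : ℝ} (hD : |D| ≤ E) (hp : |2 * p| ≤ a) : -(E * a) ≤ 2 * D * p := by
  have h : |2 * D * p| ≤ E * a := by
    have : |2 * D * p| = |D| * |2 * p| := by
      rw [← abs_mul]; congr 1; ring
    rw [this]
    exact mul_le_mul hD hp (abs_nonneg _) ((abs_nonneg D).trans hD)
  exact (abs_le.mp h).1

theorem g_bounds {u : ℝ} (hu0 : 0 ≤ u) (hu1 : u ≤ 1 / 5) :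
    0 ≤ 1 - 6 * u + 11 * u ^ 2 - 7 * u ^ 3 + u ^ 4 ∧ 1 - 6 * u + 11 * u ^ 2 - 7 * u ^ 3 + u ^ 4 ≤ 1 := by
  have h2 : 0 ≤ u ^ 2 := by positivity
  have h3 : 0 ≤ u ^ 3 := by positivity
  have h4 : 0 ≤ u ^ 4 := by positivity
  have hu2 : u ^ 2 ≤ 1 / 5 * u := by nlinarith
  have hu3 : u ^ 3 ≤ 1 / 25 * u := by nlinarith
  have hu4 : u ^ 4 ≤ 1 / 125 * u := by nlinarith
  constructor
  · nlinarith [sq_nonneg (u - 1 / 5), mul_nonneg hu0 (sub_nonneg.mpr hu1)]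
  · nlinarith

theorem d20_bounds {u : ℝ} (hu0 : 0 ≤ u) (hu1 : u ≤ 1 / 5) :
    |3 / 4 - 15 / 4 * u + 13 / 2 * u ^ 2 - 7 / 2 * u ^ 3| ≤ 3 / 4 := by
  have h2 : 0 ≤ u ^ 2 := by positivity
  have h3 : 0 ≤ u ^ 3 := by positivity
  have hu2 : u ^ 2 ≤ 1 / 5 * u := by nlinarith
  have hu3 : u ^ 3 ≤ 1 / 5 * u ^ 2 := by nlinarith
  rw [abs_le]
  constructor
  · nlinarith
  · nlinarith

theorem h_bounds {u : ℝ} (hu0 : 0 ≤ u) (hu1 : u ≤ 1 / 5) :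
    |-3 + 2 * u + u * (2 - u) ^ 2| ≤ 3 := by
  have h2 : 0 ≤ u ^ 2 := by positivity
  have h3 : 0 ≤ u ^ 3 := by positivity
  have hu2 : u ^ 2 ≤ 1 / 5 * u := by nlinarith
  have hu3 : u ^ 3 ≤ 1 / 25 * u := by nlinarith
  rw [abs_le]
  constructor
  · nlinarith
  · nlinarith

theorem r0_nonneg {u : ℝ} (hu0 : 0 ≤ u) (hu1 : u ≤ 1 / 5) :
    0 ≤ (4 - 5 * u + 7 / 2 * u ^ 2 - u * (2 - u) ^ 2 * (1 + 5 / 2 * u)) - (2 - u) * (3 / 4 + 1 / 3) := by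
  have h2 : 0 ≤ u ^ 2 := by positivity
  have h3 : 0 ≤ u ^ 3 := by positivity
  have h4 : 0 ≤ u ^ 4 := by positivity
  have hu2 : u ^ 2 ≤ 1 / 5 * u := by nlinarith
  have hu3 : u ^ 3 ≤ 1 / 25 * u := by nlinarith
  have hu4 : u ^ 4 ≤ 1 / 125 * u := by nlinarith
  nlinarith

theorem r1_nonneg {u : ℝ} (hu0 : 0 ≤ u) (hu1 : u ≤ 1 / 5) :
    0 ≤ (2 - 4 * (u * (2 - u)) + u * (2 - u) ^ 2 * (1 + u) - 1 / 2 * u ^ 2 * (2 - u) ^ 4)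
      - (2 - u) * (1 / 3 + 1 / 5) := by
  have h2 : 0 ≤ u ^ 2 := by positivity
  have h3 : 0 ≤ u ^ 3 := by positivity
  have h4 : 0 ≤ u ^ 4 := by positivity
  have h5 : 0 ≤ u ^ 5 := by positivity
  have h6 : 0 ≤ u ^ 6 := by positivity
  have hu2 : u ^ 2 ≤ 1 / 5 * u := by nlinarith
  have hu3 : u ^ 3 ≤ 1 / 25 * u := by nlinarith
  have hu4 : u ^ 4 ≤ 1 / 125 * u := by nlinarith
  have hu5 : u ^ 5 ≤ 1 / 625 * u := by nlinarith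
  have hu6 : u ^ 6 ≤ 1 / 3125 * u := by nlinarith
  nlinarith

theorem r2_nonneg {u : ℝ} (hu0 : 0 ≤ u) (hu1 : u ≤ 1 / 5) :
    0 ≤ (3 - 2 * (u * (2 - u)) - 2 * (u * (2 - u)) * (1 - u)) - 3 / 4 - 1 / 5 := by
  have h2 : 0 ≤ u ^ 2 := by positivity
  have h3 : 0 ≤ u ^ 3 := by positivity
  have hu2 : u ^ 2 ≤ 1 / 5 * u := by nlinarith
  have hu3 : u ^ 3 ≤ 1 / 25 * u := by nlinarith
  nlinarith

/-- The remainder quadratic form in the lobe certificate is nonnegative. -/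
theorem lobe_dform {s u p00 p01 p02 p11 p12 p22 : ℝ} (hu0 : 0 ≤ u) (hu1 : u ≤ 1 / 5)
    (hs0 : 0 ≤ s) (hs1 : s ≤ 3 / 5)
    (h01 : |2 * p01| ≤ p00 + p11) (h02 : |2 * p02| ≤ p00 + p22) (h12 : |2 * p12| ≤ p11 + p22)
    (hp0 : 0 ≤ p00) (hp1 : 0 ≤ p11) (hp2 : 0 ≤ p22) :
    0 ≤ u * (4 - 5 * u + 7 / 2 * u ^ 2 - u * (2 - u) ^ 2 * (1 + 5 / 2 * u)) * p00
      + u * (2 - 4 * (u * (2 - u)) + u * (2 - u) ^ 2 * (1 + u) - 1 / 2 * u ^ 2 * (2 - u) ^ 4) * p11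
      + (u * (2 - u)) * (3 - 2 * (u * (2 - u)) - 2 * (u * (2 - u)) * (1 - u)) * p22
      + 2 * (s * u * (1 - 6 * u + 11 * u ^ 2 - 7 * u ^ 3 + u ^ 4)) * p01
      + 2 * ((u * (2 - u)) * (3 / 4 - 15 / 4 * u + 13 / 2 * u ^ 2 - 7 / 2 * u ^ 3)) * p02
      + 2 * (s * u ^ 2 * (-3 + 2 * u + u * (2 - u) ^ 2)) * p12 := by
  have hq0 : 0 ≤ u * (2 - u) := mul_nonneg hu0 (by linarith)
  have hg := g_bounds hu0 hu1
  have hd20 := d20_bounds hu0 hu1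
  have hh := h_bounds hu0 hu1
  have hsu : 0 ≤ s * u := mul_nonneg hs0 hu0
  -- bound on the `p01` coefficient
  have b10 : |s * u * (1 - 6 * u + 11 * u ^ 2 - 7 * u ^ 3 + u ^ 4)| ≤ 1 / 3 * (u * (2 - u)) := by
    rw [abs_of_nonneg (mul_nonneg hsu hg.1)]
    have h1 : s * u * (1 - 6 * u + 11 * u ^ 2 - 7 * u ^ 3 + u ^ 4) ≤ s * u * 1 :=
      mul_le_mul_of_nonneg_left hg.2 hsu
    have h2 : s * u ≤ 3 / 5 * u := mul_le_mul_of_nonneg_right hs1 hu0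
    nlinarith
  -- bound on the `p02` coefficient
  have b20 : |(u * (2 - u)) * (3 / 4 - 15 / 4 * u + 13 / 2 * u ^ 2 - 7 / 2 * u ^ 3)|
      ≤ 3 / 4 * (u * (2 - u)) := by
    rw [abs_mul, abs_of_nonneg hq0, mul_comm]
    exact mul_le_mul_of_nonneg_right hd20 hq0
  -- bound on the `p12` coefficient
  have b21 : |s * u ^ 2 * (-3 + 2 * u + u * (2 - u) ^ 2)| ≤ 1 / 5 * (u * (2 - u)) := by
    rw [abs_mul, abs_of_nonneg (by positivity : 0 ≤ s * u ^ 2)]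
    have h1 : s * u ^ 2 * |-3 + 2 * u + u * (2 - u) ^ 2| ≤ s * u ^ 2 * 3 :=
      mul_le_mul_of_nonneg_left hh (by positivity)
    have h2 : s * u ^ 2 ≤ 3 / 5 * u ^ 2 := mul_le_mul_of_nonneg_right hs1 (by positivity)
    nlinarith
  have t1 := term_bound b10 h01
  have t2 := term_bound b20 h02
  have t3 := term_bound b21 h12
  have r0 := mul_nonneg (mul_nonneg hu0 (r0_nonneg hu0 hu1)) hp0
  have r1 := mul_nonneg (mul_nonneg hu0 (r1_nonneg hu0 hu1)) hp1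
  have r2 := mul_nonneg (mul_nonneg hq0 (r2_nonneg hu0 hu1)) hp2
  nlinarith [t1, t2, t3, r0, r1, r2]

/-- Lobe lemma: rectangle `[-1,1] × [-c,c]`, `c = 1 - u`, `s ^ 2 + c ^ 2 = 1`, implies
`‖s B² x + 2 c B x - s x‖ ≤ 4 c ‖x‖`. -/
theorem lobe (B : H →L[ℂ] H) {s u : ℝ} (hu0 : 0 ≤ u) (hu1 : u ≤ 1 / 5) (hs0 : 0 ≤ s)
    (hs1 : s ≤ 3 / 5) (hs : s ^ 2 = u * (2 - u))
    (hre : ∀ v : H, |(inner ℂ v (B v)).re| ≤ 1 * ‖v‖ ^ 2)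
    (him : ∀ v : H, |(inner ℂ v (B v)).im| ≤ (1 - u) * ‖v‖ ^ 2) (x : H) :
    ‖(s : ℂ) • B (B x) + ((2 * (1 - u) : ℝ) : ℂ) • B x - (s : ℂ) • x‖ ≤ (4 * (1 - u)) * ‖x‖ := by
  obtain ⟨v1, hv1⟩ : ∃ v1, B x = v1 := ⟨_, rfl⟩
  obtain ⟨v2, hv2⟩ : ∃ v2, B v1 = v2 := ⟨_, rfl⟩
  obtain ⟨v3, hv3⟩ : ∃ v3, B v2 = v3 := ⟨_, rfl⟩
  rw [hv1, hv2]
  -- coefficients
  obtain ⟨q, hq⟩ : ∃ q, q = u * (2 - u) := ⟨_, rfl⟩
  have h1 := pairX B hre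
    (((4 - 3 * q - q : ℝ) : ℂ) • x + ((s * (1 - 2 * q) * (1 / 2) + s * (3 / 2) : ℝ) : ℂ) • v1
      + ((2 * q : ℝ) : ℂ) • v2)
    (((3 * s * (1 - u) : ℝ) : ℂ) • x + ((2 : ℝ) : ℂ) • v1)
  have h2 := pairY B him
    (((3 * s * (1 - u) : ℝ) : ℂ) • x + ((2 : ℝ) : ℂ) • v1)
    (((4 - 3 * q + q : ℝ) : ℂ) • x + ((s * (1 - 2 * q) * (1 / 2) - s * (3 / 2) : ℝ) : ℂ) • v1
      - ((2 * q : ℝ) : ℂ) • v2)
  simp only [map_add, map_sub, map_smul, hv1, hv2, hv3, F_add_left, F_add_right, F_sub_left,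
    F_sub_right, F_smul_left, F_smul_right, F_comm v1 x, F_comm v2 x, F_comm v3 x, F_comm v2 v1,
    F_comm v3 v1, F_comm v3 v2] at h1 h2
  have c01 := two_F_abs_le x v1
  have c02 := two_F_abs_le x v2
  have c12 := two_F_abs_le v1 v2
  have goal2 : F ((s : ℂ) • v2 + ((2 * (1 - u) : ℝ) : ℂ) • v1 - (s : ℂ) • x)
      ((s : ℂ) • v2 + ((2 * (1 - u) : ℝ) : ℂ) • v1 - (s : ℂ) • x) ≤ (4 * (1 - u)) ^ 2 * F x x := by
    simp only [F_add_left, F_add_right, F_sub_left, F_sub_right, F_smul_left, F_smul_right,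
      F_comm v1 x, F_comm v2 x, F_comm v3 x, F_comm v2 v1, F_comm v3 v1, F_comm v3 v2]
    have hd := lobe_dform (s := s) hu0 hu1 hs0 hs1 c01 c02 c12 (F_self_nonneg x)
      (F_self_nonneg v1) (F_self_nonneg v2)
    generalize F x x = p00 at *
    generalize F x v1 = p01 at *
    generalize F x v2 = p02 at *
    generalize F x v3 = p03 at *
    generalize F v1 v1 = p11 at *
    generalize F v1 v2 = p12 at *
    generalize F v1 v3 = p13 at *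
    generalize F v2 v2 = p22 at *
    generalize F v2 v3 = p23 at *
    subst hq
    linear_combination (1 / 2) * h1 + (1 / 2) * h2 + hd
      - ((1/2)*u^5*p11 - 3*u^4*p11 + (9/2)*u^3*p00 - 3*u^3*p02 + 5*u^3*p11 - 18*u^2*p00
        + 9*u^2*p02 - 3*u^2*p11 + (45/2)*u*p00 - (15/2)*u*p02 - 2*u*p11 - 10*p00 + (7/2)*p02
        + 2*p11 - p22) * hs
  rw [F_self, F_self] at goal2
  have hc : (0 : ℝ) ≤ 1 - u := by linarith
  apply norm_le_of_sq_le (by positivity) _ (norm_nonneg _)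
  rw [mul_pow]; exact goal2

end Vale.Agent.Lib.P123
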