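import Vale.Agent.Lib.P123.Core

/-!
Assembling the bound for all quadratic polynomials.
-/

namespace Vale.Agent.Lib.P123

variable {H : Type*} [NormedAddCommGroup H] [InnerProductSpace ℂ H]

/-- The monic quadratic `z ^ 2 - d`. -/
theorem monic_bound (A : H →L[ℂ] H) (d : ℂ) {M : ℝ} (hM : 0 < M)
    (h : ∀ x : H, ‖x‖ = 1 → ‖(inner ℂ x (A x)) ^ 2 - d‖ ≤ M) (x : H) :
    ‖A (A x) - d • x‖ ≤ 2 * M * ‖x‖ := by
  by_cases hd : d = 0
  · subst hd
    obtain ⟨X, hX⟩ : ∃ X, X = Real.sqrt M := ⟨_, rfl⟩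
    have hX2 : X ^ 2 = M := by rw [hX]; exact Real.sq_sqrt hM.le
    have hX0 : 0 < X := by rw [hX]; exact Real.sqrt_pos.mpr hM
    have hnorm : ∀ v : H, ‖v‖ = 1 → ‖inner ℂ v (A v)‖ ≤ X := by
      intro v hv
      have := h v hv
      rw [sub_zero, norm_pow] at this
      apply norm_le_of_sq_le hX0.le _ (norm_nonneg _)
      rw [hX2]; exact this
    have hre : ∀ v : H, |(inner ℂ v (A v)).re| ≤ X * ‖v‖ ^ 2 :=
      re_bound_of_unit A fun v hv => (Complex.abs_re_le_norm _).trans (hnorm v hv)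
    have him : ∀ v : H, |(inner ℂ v (A v)).im| ≤ X * ‖v‖ ^ 2 :=
      im_bound_of_unit A fun v hv => (Complex.abs_im_le_norm _).trans (hnorm v hv)
    have hm := main_lemma A (X := X) (Y := X) (by linarith) hre him x
    have e1 : (((X ^ 2 - X ^ 2) / 2 : ℝ) : ℂ) = 0 := by simp
    rw [e1, zero_smul, sub_zero] at hm
    rw [zero_smul, sub_zero]
    have e2 : (X + X) ^ 2 / 2 = 2 * M := by rw [← hX2]; ring
    rwa [e2] at hm
  · obtain ⟨e, he⟩ := IsAlgClosed.exists_pow_nat_eq d (n := 2) (by norm_num)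
    have he0 : e ≠ 0 := by
      rintro rfl
      apply hd
      rw [← he]; simp
    have hdn : 0 < ‖d‖ := norm_pos_iff.mpr hd
    let B : H →L[ℂ] H := e⁻¹ • A
    have hB : ∀ v, B v = e⁻¹ • A v := fun v => by simp [B]
    have hcore := core B (M := M / ‖d‖) (by positivity) (by
      intro v hv
      have h1 := h v hv
      have e1 : (inner ℂ v (B v)) ^ 2 - 1 = d⁻¹ * ((inner ℂ v (A v)) ^ 2 - d) := by
        rw [hB, inner_smul_right, mul_pow, inv_pow, he, mul_sub, inv_mul_cancel₀ hd]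
      rw [e1, norm_mul, norm_inv, div_eq_inv_mul]
      exact mul_le_mul_of_nonneg_left h1 (by positivity)) x
    have e2 : A (A x) - d • x = d • (B (B x) - x) := by
      have e3 : d * (e⁻¹ * e⁻¹) = 1 := by
        rw [← he]; field_simp
      rw [hB, hB, map_smul, smul_smul, smul_sub, smul_smul, e3, one_smul]
    rw [e2, norm_smul]
    calc ‖d‖ * ‖B (B x) - x‖ ≤ ‖d‖ * (2 * (M / ‖d‖) * ‖x‖) :=
          mul_le_mul_of_nonneg_left hcore hdn.le
      _ = 2 * M * ‖x‖ := by field_simp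

/-- The general quadratic. -/
theorem quad_bound_pos (A : H →L[ℂ] H) (a0 a1 a2 : ℂ) {M : ℝ} (hM : 0 < M)
    (h : ∀ x : H, ‖x‖ = 1 → ‖a0 + a1 * inner ℂ x (A x) + a2 * (inner ℂ x (A x)) ^ 2‖ ≤ M) (x : H) :
    ‖a0 • x + a1 • A x + a2 • A (A x)‖ ≤ 2 * M * ‖x‖ := by
  by_cases ha2 : a2 = 0
  · subst ha2
    let T : H →L[ℂ] H := a1 • A + a0 • ContinuousLinearMap.id ℂ H
    have hT : ∀ v, T v = a1 • A v + a0 • v := fun v => by simp [T]
    have hTin : ∀ v : H, ‖v‖ = 1 → inner ℂ v (T v) = a0 + a1 * inner ℂ v (A v) := by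
      intro v hv
      have : inner ℂ v v = (1 : ℂ) := by
        rw [inner_self_eq_norm_sq_to_K, hv]; simp
      rw [hT, inner_add_right, inner_smul_right, inner_smul_right, this]
      ring
    have hn : ∀ v : H, ‖v‖ = 1 → ‖inner ℂ v (T v)‖ ≤ M := by
      intro v hv
      have := h v hv
      rw [hTin v hv]
      simpa using this
    have hre : ∀ v : H, |(inner ℂ v (T v)).re| ≤ M * ‖v‖ ^ 2 :=
      re_bound_of_unit T fun v hv => (Complex.abs_re_le_norm _).trans (hn v hv)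
    have him : ∀ v : H, |(inner ℂ v (T v)).im| ≤ M * ‖v‖ ^ 2 :=
      im_bound_of_unit T fun v hv => (Complex.abs_im_le_norm _).trans (hn v hv)
    have := norm_apply_le_of_rect T (X := M) (Y := M) (by linarith) hre him x
    rw [hT] at this
    have e : a0 • x + a1 • A x + (0 : ℂ) • A (A x) = a1 • A x + a0 • x := by
      rw [zero_smul, add_zero, add_comm]
    rw [e]
    calc ‖a1 • A x + a0 • x‖ ≤ (M + M) * ‖x‖ := this
      _ = 2 * M * ‖x‖ := by ring
  · have han : 0 < ‖a2‖ := norm_pos_iff.mpr ha2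
    obtain ⟨b, hb⟩ : ∃ b, b = a1 / (2 * a2) := ⟨_, rfl⟩
    obtain ⟨d, hd⟩ : ∃ d, d = b ^ 2 - a0 / a2 := ⟨_, rfl⟩
    have hba : 2 * a2 * b = a1 := by rw [hb]; field_simp
    have hda : a2 * (b ^ 2 - d) = a0 := by rw [hd]; field_simp; ring
    let C : H →L[ℂ] H := A + b • ContinuousLinearMap.id ℂ H
    have hC : ∀ v, C v = A v + b • v := fun v => by simp [C]
    have hCin : ∀ v : H, ‖v‖ = 1 → inner ℂ v (C v) = inner ℂ v (A v) + b := by
      intro v hv
      have : inner ℂ v v = (1 : ℂ) := by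
        rw [inner_self_eq_norm_sq_to_K, hv]; simp
      rw [hC, inner_add_right, inner_smul_right, this, mul_one]
    have hm := monic_bound C d (M := M / ‖a2‖) (by positivity) (by
      intro v hv
      have h1 := h v hv
      have e1 : (inner ℂ v (C v)) ^ 2 - d
          = a2⁻¹ * (a0 + a1 * inner ℂ v (A v) + a2 * (inner ℂ v (A v)) ^ 2) := by
        rw [hCin v hv, ← hba, ← hda]
        field_simp
        ring
      rw [e1, norm_mul, norm_inv, div_eq_inv_mul]
      exact mul_le_mul_of_nonneg_left h1 (by positivity)) x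
    have e2 : a0 • x + a1 • A x + a2 • A (A x) = a2 • (C (C x) - d • x) := by
      rw [hC, hC, map_add, map_smul, ← hba, ← hda]
      module
    rw [e2, norm_smul]
    calc ‖a2‖ * ‖C (C x) - d • x‖ ≤ ‖a2‖ * (2 * (M / ‖a2‖) * ‖x‖) :=
          mul_le_mul_of_nonneg_left hm han.le
      _ = 2 * M * ‖x‖ := by field_simp

/-- Operator norm form for polynomials of degree at most two. -/
theorem poly_bound [Nontrivial H] (A : H →L[ℂ] H) (P : Polynomial ℂ) (hP : P.natDegree ≤ 2)
    (M : ℝ) (hM : ∀ x : H, ‖x‖ = 1 → ‖P.eval (inner ℂ x (A x))‖ ≤ M) :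
    ‖Polynomial.aeval A P‖ ≤ 2 * M := by
  have hM0 : 0 ≤ M := by
    obtain ⟨v, hv⟩ := exists_ne (0 : H)
    obtain ⟨u, hu, -⟩ := exists_unit hv
    exact (norm_nonneg _).trans (hM u hu)
  have haeval : ∀ x, (Polynomial.aeval A P) x
      = P.coeff 0 • x + P.coeff 1 • A x + P.coeff 2 • A (A x) := by
    intro x
    rw [Polynomial.aeval_eq_sum_range' (n := 3) (by omega)]
    simp [Finset.sum_range_succ, pow_two]
  have heval : ∀ z : ℂ, P.eval z = P.coeff 0 + P.coeff 1 * z + P.coeff 2 * z ^ 2 := by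
    intro z
    rw [Polynomial.eval_eq_sum_range' (n := 3) (by omega)]
    simp [Finset.sum_range_succ]
  apply le_of_forall_pos_le_add
  intro ε hε
  have hpos : 0 < M + ε / 2 := by linarith
  have : 2 * M + ε = 2 * (M + ε / 2) := by ring
  rw [this]
  apply ContinuousLinearMap.opNorm_le_bound _ (by positivity)
  intro x
  rw [haeval]
  apply quad_bound_pos A _ _ _ hpos
  intro v hv
  rw [← heval]
  linarith [hM v hv]

end Vale.Agent.Lib.P123
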